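import Vale.Agent.P014T.Te.Eu
import Vale.Agent.P014T.Lk.Rat
import Vale.Agent.P014T.Rc.Even
import Vale.Agent.P014T.Pl.Zw
import Vale.Agent.P014T.Pl.Lwx
import Vale.Agent.P014T.La.Per

/-! # P014T, block Zr: the numbers in the reciprocity law -/

set_option autoImplicit false
set_option linter.all false

open MeasureTheory
open scoped Classical NumberTheorySymbols UpperHalfPlane

noncomputable section

namespace Vale.Agent.P014T.Zr

open Vale.Agent.P022 (Qb GQ)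
open Vale.Agent.P004Z (ee)
open Vale.Agent.P004F (sd)
open Vale.Agent.P004M.TE (al)
open Vale.Agent.P027M.M (io)
open P004N (RN)
open Top (El Ad Pm Nf sI w0 cS)
open Rk (Lw Lj hat)
open An (cp Pw pw_mod pw_const)
open Pl.Zw (wt Ce)
open Kx.Tw (Tq rt)
open Rc (sm)
open Lc (Wq)

variable {δ A B A' B' : ℤ} {N l c d k q n D : ℕ} {G : ℍ → ℂ} {a : ℕ → ℤ} {S S' : Finset ℕ}

/-- the smoothing factor -/
def s0 (δ : ℤ) (c d : ℕ) : ℤ := (c ^ 2 - c * J(c | δ.natAbs)) * (d ^ 2 - d * J(d | δ.natAbs))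

namespace Nm

/-- the quadratic character -/
def ch (δ : ℤ) (k : ℕ) : ℤ := J(k | δ.natAbs)

theorem s0_eq (δ : ℤ) (c d : ℕ) : (c ^ 2 - c * ch δ c) * (d ^ 2 - d * ch δ d) = s0 δ c d := rfl

/-- `(A', B')` is the twist by `δ` -/
structure Tn (δ : ℤ) (S : Finset ℕ) (a : ℕ → ℤ) (A B A' B' : ℤ) : Prop where
  d8 : δ % 8 = 1
  pos : 0 < δ
  pm : Pm S
  two : 2 ∈ S
  dv : δ.natAbs ∣ ∏ p ∈ S, p
  ne : w0 A' B' ≠ 0
  per : w0 A' B' * √δ = w0 A B
  co : ∀ n : ℕ, n.Coprime (∏ p ∈ S, p) → al A' B' n = ch δ n * a n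

theorem s0_ne (hc : 1 < c) (hd : 1 < d) : s0 δ c d ≠ 0 := by
  have k : ∀ c : ℕ, 1 < c → (c ^ 2 - c * ch δ c : ℤ) ≠ 0 := fun c h => by
    rcases jacobiSym.trichotomy c δ.natAbs with e | e | e <;> rw [ch, e] <;> nlinarith
  exact mul_ne_zero (k c hc) (k d hd)

/-- **the period of the twist** -/
theorem w0_tw (h : 0 < δ) (A B : ℤ) : w0 (A * δ ^ 2) (B * δ ^ 3) * √δ = w0 A B := by
  have d0 : (0 : ℝ) < δ := Int.cast_pos.2 h
  have s0 : 0 < √(δ : ℝ) := Real.sqrt_pos.2 d0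
  have p : Bt.p0 (A * δ ^ 2) (B * δ ^ 3) = Bt.p0 A B := by
    rw [Bt.p0, Bt.p0, show 4 * (A * δ ^ 2) ^ 3 + 27 * (B * δ ^ 3) ^ 2 =
      δ ^ 6 * (4 * A ^ 3 + 27 * B ^ 2) by ring]
    simp only [← not_le, mul_nonneg_iff_of_pos_left (pow_pos h 6)]
  have e : ∀ x : ℝ, P014.psi (Wq (sI (A * δ ^ 2) (B * δ ^ 3))) (δ * x) =
      δ ^ 2 * (δ * P014.psi (Wq (sI A B)) x) := fun x => by
    simp [P014.psi, La.Pe.wq_sI, WeierstrassCurve.b₂, WeierstrassCurve.b₄, WeierstrassCurve.b₆]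
    ring
  have m : ∀ E, MeasurableSet {x : ℝ | 0 < P014.psi E x} := fun E =>
    (isOpen_lt continuous_const (by unfold P014.psi; fun_prop)).measurableSet
  have i := Measure.integral_comp_mul_left ({x : ℝ | 0 < P014.psi (Wq (sI (A * δ ^ 2) (B * δ ^ 3))) x}.indicator
    fun x => 2 / √(P014.psi (Wq (sI (A * δ ^ 2) (B * δ ^ 3))) x)) δ
  have j : ∀ x : ℝ, ({x : ℝ | 0 < P014.psi (Wq (sI (A * δ ^ 2) (B * δ ^ 3))) x}.indicator
      fun x => 2 / √(P014.psi (Wq (sI (A * δ ^ 2) (B * δ ^ 3))) x)) (δ * x) = (δ * √δ)⁻¹ *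
      ({x : ℝ | 0 < P014.psi (Wq (sI A B)) x}.indicator fun x => 2 / √(P014.psi (Wq (sI A B)) x)) x :=
    fun x => by
      simp only [Set.indicator, Set.mem_setOf_eq, e, mul_pos_iff_of_pos_left (pow_pos d0 2),
        mul_pos_iff_of_pos_left d0]
      split_ifs
      · rw [Real.sqrt_mul (sq_nonneg _), Real.sqrt_sq d0.le, Real.sqrt_mul d0.le]
        ring
      · simp
  simp only [j] at i
  rw [integral_const_mul, integral_indicator (m _), integral_indicator (m _), abs_of_pos (inv_pos.2 d0),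
    smul_eq_mul] at i
  rw [w0, w0, p, P014.realPeriod, P014.realPeriod, div_mul_eq_mul_div]
  congr 1
  field_simp at i
  linear_combination -i

theorem cop (l0 : l ≠ 0) (h : l.primeFactors ⊆ S) (c : n.Coprime (∏ p ∈ S, p)) : n.Coprime l :=
  Nat.coprime_of_dvd fun p hp a b => (Nat.Prime.not_coprime_iff_dvd.2 ⟨p, hp, a,
    Finset.dvd_prod_of_mem _ (h (Nat.mem_primeFactors.2 ⟨hp, b, l0⟩))⟩) c

theorem cop_iff (l0 : l ≠ 0) (h : l.primeFactors = S) : n.Coprime l ↔ n.Coprime (∏ p ∈ S, p) :=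
  ⟨fun c => c.coprime_dvd_right (h ▸ Nat.prod_primeFactors_dvd l), cop l0 h.le⟩

/-- **the curve and its twist** -/
theorem tn (f : Nf A B N G a) (h : El A B) (ad : Ad δ) (pos : 0 < δ) :
    ∃ S₀, Pm S₀ ∧ ∀ S, S₀ ⊆ S → Pm S →
      Tn 1 S a A B A B ∧ Tn δ S a A B (A * δ ^ 2) (B * δ ^ 3) := by
  have w := Lk.w0_pos h
  have : (Wq (sI A B)).IsElliptic := ⟨by
    rw [Wq, WeierstrassCurve.map_Δ]
    exact IsUnit.mk0 _ (by simpa using La.Pe.sI_ne h)⟩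
  obtain ⟨T, -, b, t⟩ := Lk.at_fin (La.Pe.md_sI A B) f.rn f.fin
  have d0 : δ.natAbs ≠ 0 := by omega
  have t0 : 2 * (T * δ.natAbs) ≠ 0 := mul_ne_zero two_ne_zero (mul_ne_zero t.1 d0)
  refine ⟨(2 * (T * δ.natAbs)).primeFactors, fun p => Nat.prime_of_mem_primeFactors, fun S s p => ?_⟩
  have two := s (Nat.mem_primeFactors.2 ⟨Nat.prime_two, dvd_mul_right _ _, t0⟩)
  have e : ∀ n : ℕ, n.Coprime (∏ p ∈ S, p) → al A B n = a n := fun n c => by
    rw [← Lk.lf_md (La.Pe.md_sI A B)]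
    exact t.2 n ((cop t0 s c).coprime_dvd_right ((dvd_mul_right _ _).mul_left _))
  refine ⟨⟨by decide, one_pos, p, two, one_dvd _, w.ne', by simp, fun n c => by simp [ch, e n c]⟩,
    ad.2, pos, p, two, ?_, fun k => ?_, w0_tw pos A B, fun n c => ?_⟩
  · rw [← Nat.prod_primeFactors_of_squarefree (Int.squarefree_natAbs.2 ad.1)]
    exact Finset.prod_dvd_prod_of_subset _ _ _
      ((Nat.primeFactors_mono ((dvd_mul_left _ _).mul_left _) t0).trans s)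
  · rw [← w0_tw pos, k, zero_mul] at w
    exact w.false
  · have c' := cop t0 s c
    rw [Lk.al_twist h pos.ne' n (c'.coprime_dvd_right ((mul_dvd_mul_right b _).mul_left _)), e n c, ch,
      ← jacobiSym.quadratic_reciprocity_one_mod_four (by have := ad.2; omega)
        (Nat.coprime_two_right.1 (c'.coprime_dvd_right (dvd_mul_right _ _))),
      Int.natAbs_of_nonneg pos.le, mul_comm]

/-! ### the weights -/

theorem ch_mul (δ : ℤ) (c d : ℕ) : ch δ (c * d) = ch δ c * ch δ d := by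
  rw [ch, Nat.cast_mul, jacobiSym.mul_left, ch, ch]

theorem wt_two (f g : ℕ → ℤ) (x : ZMod l) : wt l (fun k => f k * g k) x = wt l f x * g x.val := by
  simp [wt]

section

variable [NeZero l] (dv : δ.natAbs ∣ l)
include dv

theorem wt_int (z : ℤ) : wt l (ch δ) z = if IsUnit (z : ZMod l) then J(z | δ.natAbs) else 0 := by
  rw [wt, ch, ZMod.val_intCast,
    jacobiSym.mod_left' (Int.emod_emod_of_dvd _ (Int.natCast_dvd_natCast.2 dv))]
  split_ifs <;> rfl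

theorem wt_mul (x y : ZMod l) : wt l (ch δ) (x * y) = wt l (ch δ) x * wt l (ch δ) y := by
  obtain ⟨x, rfl⟩ := ZMod.intCast_surjective x
  obtain ⟨y, rfl⟩ := ZMod.intCast_surjective y
  rw [← Int.cast_mul, wt_int dv, wt_int dv, wt_int dv, Int.cast_mul, jacobiSym.mul_left]
  by_cases IsUnit (x : ZMod l) <;> by_cases IsUnit (y : ZMod l) <;> simp [*, IsUnit.mul_iff]

theorem wt_nat (n : ℕ) : wt l (ch δ) n = if n.Coprime l then ch δ n else 0 := by
  rw [← Int.cast_natCast (R := ZMod l), wt_int dv, Int.cast_natCast]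
  simp only [ZMod.isUnit_iff_coprime, ch]

theorem wt_neg (d4 : δ.natAbs % 4 = 1) (x : ZMod l) : wt l (ch δ) (-x) = wt l (ch δ) x := by
  have := wt_int dv (-1)
  rw [if_pos (by simp), jacobiSym.at_neg_one (Nat.odd_iff.2 (by omega)),
    ZMod.χ₄_nat_one_mod_four d4, Int.cast_neg, Int.cast_one] at this
  rw [← neg_one_mul, wt_mul dv, this, one_mul]

theorem wt_inv (hc : c.Coprime l) (x : ZMod l) :
    wt l (ch δ) ((c : ZMod l)⁻¹ * x) = ch δ c * wt l (ch δ) x := by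
  have e := wt_mul dv c ((c : ZMod l)⁻¹ * x)
  rw [← mul_assoc, ZMod.coe_mul_inv_eq_one _ hc, one_mul, wt_nat dv, if_pos hc] at e
  have s : ch δ c ^ 2 = 1 := jacobiSym.sq_one (hc.coprime_dvd_right dv)
  rw [e, ← mul_assoc, ← sq, s, one_mul]

end

theorem hat_gal [NeZero l] {ζ : Qb} (z1 : ζ ^ l = 1) {g : GQ} {κ : (ZMod l)ˣ}
    (e : g ζ = ζ ^ (κ : ZMod l).val) {f : ZMod l → ℤ} {t : ℤ} (hf : ∀ x, f x = t * f (κ * x))
    (i : ZMod l) : g (hat ζ (fun b => (f b : Qb)) i) = t * hat ζ (fun b => (f b : Qb)) i := by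
  rw [hat, map_sum, ← Equiv.sum_comp (Units.mulLeft κ) fun b => ζ ^ (-(b * i)).val * (f b : Qb),
    Finset.mul_sum]
  refine Finset.sum_congr rfl fun b _ => ?_
  have k : ζ ^ (-(κ * b * i)).val = ζ ^ ((κ : ZMod l).val * (-(b * i)).val) := by
    rw [mul_assoc, ← mul_neg (κ : ZMod l), ZMod.val_mul (κ : ZMod l), ← pow_eq_pow_mod _ z1]
  rw [map_mul, map_pow, map_intCast, e, ← pow_mul, ← k, hf b, Int.cast_mul, mul_left_comm]
  rfl

/-- **integrality of the values of even weights** -/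
theorem alg {w₀ : ℝ} (R : RN N G a)
    (hD : ∀ r : ℚ, ∃ k : ℤ, D * (Lw a fun n => ee (n * r)).re = k * w₀) [NeZero l] {f : ZMod l → ℤ}
    (ev : ∀ x, f (-x) = f x) :
    ∃ y : Qb, IsIntegral ℤ y ∧ (io y * w₀ = D * l * Lw a fun n => f n) ∧
      ∀ c, Ce l c → ∀ (g : GQ) (t : ℤ), (∀ x, f x = t * f (c g * x)) → g y = t * y := by
  choose k hk using fun i : ZMod l => hD (i.val / l)
  simp only [Rat.cast_div, Rat.cast_natCast] at hk
  replace hk : ∀ i, (D * (Lj a l i).re : ℂ) = k i * w₀ := fun i => by exact_mod_cast hk i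
  obtain ⟨ζ, hζ⟩ := Pl.Lw.ex_root (io : Qb →+* ℂ) l
  have pz : IsPrimitiveRoot ζ l :=
    (hζ ▸ Complex.isPrimitiveRoot_exp l (NeZero.ne l)).of_map_of_injective (io : Qb →+* ℂ).injective
  have iz : ∀ z : ℤ, IsIntegral ℤ (z : Qb) := fun z => isIntegral_algebraMap (x := z)
  refine ⟨∑ i, hat ζ (fun b => (f b : Qb)) i * k i, IsIntegral.sum _ fun i _ =>
    (IsIntegral.sum _ fun b _ => ((pz.isIntegral (NeZero.pos l)).pow _).mul (iz _)).mul (iz _), ?_,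
    fun c C g t hf => by
      simp only [map_sum, map_mul, map_intCast, hat_gal pz.pow_eq_one (C.act g ζ pz.pow_eq_one) hf,
        Finset.mul_sum, mul_assoc]⟩
  have g := Pl.Lw.even_re a (v := fun i => D * ZMod.dft (fun b => (f b : ℂ)) i) fun i => by
    rw [← congrFun (ZMod.dft_comp_neg fun b => (f b : ℂ)) i]
    simp only [ev]
  have l0 : (l : ℂ) ≠ 0 := Nat.cast_ne_zero.2 (NeZero.ne l)
  have z : io ζ = _ := hζ
  simp only [mul_right_comm (D : ℂ) _ ((_ : ℝ) : ℂ), hk] at g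
  rw [Rk.Lw_hat R fun b => (f b : ℂ), Finset.mul_sum, Finset.sum_congr rfl
    (g := fun i => D * ZMod.dft (fun b => (f b : ℂ)) i * Lj a l i) fun i _ => by field_simp, g,
    map_sum, Finset.sum_mul]
  refine Finset.sum_congr rfl fun i _ => ?_
  simp only [← Rk.hat_eq, hat, map_mul, map_sum, map_pow, map_intCast, z]
  ring

namespace Tn

variable (T : Tn δ S a A B A' B')
include T

theorem lw (s : S ⊆ S') (f : ℕ → ℂ) :
    Lw (al A' B') (cS S' f) = Lw a (cp (∏ p ∈ S', p) fun n => ch δ n * f n) := by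
  unfold Lw
  congr 2
  funext t
  refine tsum_congr fun n => ?_
  rw [cS, cp]
  split_ifs with c
  · rw [T.co n (c.coprime_dvd_right (Finset.prod_dvd_prod_of_subset _ _ _ s))]
    push_cast
    ring
  · simp

theorem d4 : δ.natAbs % 4 = 1 := by
  have := T.d8
  have := T.pos
  omega

theorem ex_r : ∃ ε : ℤ, ε * ε = 1 ∧ io (ε * rt δ) = √δ := by
  have : io (rt δ) ^ 2 = (√δ : ℝ) ^ 2 := by
    rw [← map_pow, Kx.Tw.rt_sq, map_intCast, ← Complex.ofReal_pow,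
      Real.sq_sqrt (Int.cast_pos.2 T.pos).le, Complex.ofReal_intCast]
  rcases sq_eq_sq_iff_eq_or_eq_neg.1 this with k | k
  · exact ⟨1, rfl, by simpa using k⟩
  · exact ⟨-1, rfl, by simp [k]⟩

theorem dvl (s : S ⊆ l.primeFactors) : δ.natAbs ∣ l :=
  (T.dv.trans (Finset.prod_dvd_prod_of_subset _ _ _ s)).trans (Nat.prod_primeFactors_dvd l)

theorem lw0 (l0 : l ≠ 0) (hl : l.primeFactors = S) :
    (Lw a fun n => wt l (ch δ) n) = Lw (al A' B') (cS S 1) := by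
  have := NeZero.mk l0
  rw [T.lw le_rfl]
  exact congrArg _ (funext fun n => by simp [wt_nat (T.dvl hl.ge), cp, cop_iff l0 hl])

/-- **rationality** -/
theorem rat (R : RN N G a) (D0 : D ≠ 0)
    (hD : ∀ r : ℚ, ∃ k : ℤ, D * (Lw a fun n => ee (n * r)).re = k * w0 A B) :
    ∃ ρ : ℚ, Lw (al A' B') (cS S 1) = ρ * w0 A' B' := by
  have S0 := Pl.Lw.pr_ne T.pm
  have := NeZero.mk S0
  obtain ⟨ε, -, hr⟩ := T.ex_r
  obtain ⟨c, C⟩ := Pl.Zw.ex_ce S0
  obtain ⟨y, -, hy, gy⟩ := alg R hD (wt_neg T.dv T.d4)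
  obtain ⟨ρ, e⟩ := (InfiniteGalois.mem_range_algebraMap_iff_fixed (k := ℚ) (y * (ε * rt δ))).2 fun g => by
    have s : sd δ g = ch δ (c g : ZMod (∏ p ∈ S, p)).val := Te.sd_cyc (by have := T.d8; omega) (C.act' T.dv g)
    have s2 := congrArg (Int.cast : ℤ → Qb) (Kx.Tw.sd_sq δ g)
    rw [map_mul, map_mul, map_intCast, Kx.Tw.ga_rt, gy c C g (sd δ g) fun x => by
      rw [wt_mul T.dv, C.wt_apply, ← s, ← mul_assoc, Kx.Tw.sd_sq, one_mul]]
    push_cast at s2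
    linear_combination y * ε * rt δ * s2
  have e' := congrArg io e
  rw [eq_ratCast, map_ratCast, map_mul, hr] at e'
  rw [T.lw0 S0 (Nat.primeFactors_prod T.pm), ← T.per] at hy
  refine ⟨ρ / (D * (∏ p ∈ S, p : ℕ)), ?_⟩
  have c1 : (D : ℂ) ≠ 0 := Nat.cast_ne_zero.2 D0
  have c2 : ((∏ p ∈ S, p : ℕ) : ℂ) ≠ 0 := Nat.cast_ne_zero.2 S0
  rw [Rat.cast_div, Rat.cast_mul, Rat.cast_natCast, Rat.cast_natCast, e']
  rw [Complex.ofReal_mul] at hy
  field_simp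
  linear_combination -hy

end Tn

/-- **the value for the trivial character** -/
theorem num0 (T : Tn δ S a A B A' B') (l0 : l ≠ 0) (hl : l.primeFactors = S) (hc : c.Coprime l)
    (hd : d.Coprime l) {b r : Qb} {ρ : ℚ} (hr : io r = √δ)
    (hb : io b * w0 A B = Lw a fun n => sm c d (wt l (ch δ)) n)
    (hρ : Lw (al A' B') (cS S 1) = ρ * w0 A' B') : b * r = s0 δ c d * ρ := by
  have := NeZero.mk l0
  have dv := T.dvl hl.ge
  simp only [Rc.sm_mul hc hd (wt_inv dv hc) (wt_inv dv hd), s0_eq, Int.cast_mul] at hb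
  rw [Rk.Lw_smul, T.lw0 l0 hl, hρ, ← T.per] at hb
  refine (io : Qb →+* ℂ).injective (mul_right_cancel₀ (Complex.ofReal_ne_zero.2 T.ne) ?_)
  simp only [RingHom.coe_coe, map_mul, hr, map_intCast, map_ratCast]
  rw [Complex.ofReal_mul] at hb
  linear_combination hb

/-- **the value for the logarithm** -/
theorem num1 (T : Tn δ S a A B A' B') (R : RN N G a) (D0 : D ≠ 0)
    (hD : ∀ r : ℚ, ∃ k : ℤ, D * (Lw a fun n => ee (n * r)).re = k * w0 A B) (hs0 : s0 δ c d ≠ 0)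
    {r : Qb} (hr : io r = √δ) : ∃ m : ℕ, Lw (al A' B') (cS S 1) = 0 → ∀ (n q l : ℕ)
      (W : ZMod q → ZMod (2 ^ n)) (b : Qb), q.Prime → q ∉ S →
      (∀ x y, x ≠ 0 → y ≠ 0 → W (x * y) = W x + W y) → W (-1) = 0 → l ≠ 0 →
      l.primeFactors = insert q S → c.Coprime l → d.Coprime l →
      (io b * w0 A B = Lw a fun j => sm c d (wt l fun k => ch δ k * (W k).val) j) →
      ∀ ι : Qb →+* ℂ_[2], ∃ x : Qb,
        io x * w0 A' B' = Lw (al A' B') (cS (insert q S) fun k => (W k).val) ∧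
        ‖ι (b * r / s0 δ c d - x)‖ * 2 ^ n ≤ 2 ^ m := by
  obtain ⟨m, hm⟩ := pow_unbounded_of_one_lt
    ‖((D * (∏ p ∈ S, p : ℕ) * s0 δ c d : ℂ_[2]))⁻¹‖ (one_lt_two (α := ℝ))
  refine ⟨m, fun h0 n q l W b hq qS mul W1 l0 hl hc hd hb ι => ?_⟩
  have := NeZero.mk l0
  have := Fact.mk hq
  have S0 := Pl.Lw.pr_ne T.pm
  have L0 : q * ∏ p ∈ S, p ≠ 0 := mul_ne_zero hq.ne_zero S0
  have := NeZero.mk L0
  have dv := T.dvl (hl ▸ Finset.subset_insert _ _)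
  have dL : δ.natAbs ∣ q * ∏ p ∈ S, p := T.dv.mul_left _
  have ql : q ∣ l := Nat.dvd_of_mem_primeFactors (hl ▸ Finset.mem_insert_self _ _)
  obtain ⟨π, hπ⟩ : ∃ π : ZMod l →+* ZMod q, ∀ x, (x.val : ZMod q) = π x :=
    ⟨ZMod.castHom ql _, fun x => by rw [ZMod.castHom_apply, ZMod.natCast_val]⟩
  obtain ⟨V, hV⟩ : ∃ V : ZMod q → ℤ, ∀ y, V y = (W y).val := ⟨_, fun _ => rfl⟩
  have ev : ∀ y, V (-y) = V y := fun y => by
    by_cases e : y = 0
    · rw [e, neg_zero]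
    · rw [hV, hV, ← neg_one_mul, mul _ _ (by simp) e, W1, zero_add]
  have un : ∀ k : ℕ, k.Coprime l → π (k : ZMod l)⁻¹ ≠ 0 := fun k h e => by
    simpa [e] using congrArg π (ZMod.coe_mul_inv_eq_one k h)
  obtain ⟨F, hF⟩ : ∃ F : ZMod q → ℤ, ∀ y, F y = -(c * d ^ 2 * ch δ c) * V (π (c : ZMod l)⁻¹ * y) -
    c ^ 2 * d * ch δ d * V (π (d : ZMod l)⁻¹ * y) +
    c * d * ch δ c * ch δ d * V (π ((c * d : ℕ) : ZMod l)⁻¹ * y) := ⟨_, fun _ => rfl⟩
  obtain ⟨U, hU⟩ : ∃ U : ZMod q → ℤ, ∀ y, U y = (c ^ 2 * d ^ 2 * V y + F y - s0 δ c d * V y - F 1) / 2 ^ n :=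
    ⟨_, fun _ => rfl⟩
  have eU : ∀ y, y ≠ 0 → c ^ 2 * d ^ 2 * V y + F y - s0 δ c d * V y - F 1 = 2 ^ n * U y := fun y e => by
    rw [hU, Int.mul_ediv_cancel']
    rw [show (2 : ℤ) ^ n = (2 ^ n : ℕ) by simp, ← ZMod.intCast_zmod_eq_zero_iff_dvd]
    simp only [hF, hV, mul _ _ (un c hc) e, mul _ _ (un d hd) e, mul _ _ (un _ (hc.mul_left hd)) e,
      mul_one, ← s0_eq]
    push_cast
    simp only [ZMod.natCast_zmod_val]
    ring
  obtain ⟨π', -⟩ : ∃ π' : ZMod (q * ∏ p ∈ S, p) →+* ZMod q, True :=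
    ⟨ZMod.castHom (dvd_mul_right _ _) _, trivial⟩
  set X := wt (q * ∏ p ∈ S, p) (ch δ) with hX
  have e : ∀ j : ℕ, (sm c d (wt l fun k => ch δ k * (W k).val) j : ℂ) =
      s0 δ c d * (X j * V (π' j) : ℤ) + (F 1 * X j + 2 ^ n * (X j * U (π' j) : ℤ)) := fun j => by
    have t : wt l (ch δ) j = X j := by
      simp only [hX, wt_nat dv, wt_nat dL, cop_iff l0 hl, Finset.prod_insert qS]
    have t' : X j * (c ^ 2 * d ^ 2 * V j + F j - s0 δ c d * V j - F 1) = X j * (2 ^ n * U j) := by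
      by_cases k : j.Coprime (q * ∏ p ∈ S, p)
      · rw [eU _ ((Pl.Lw.cop hq j).1 (k.coprime_dvd_right (dvd_mul_right _ _)))]
      · simp only [hX, wt_nat dL, if_neg k, zero_mul]
    rw [hF] at t'
    rw [sm, ← Nat.cast_mul (α := ZMod l) c d]
    simp only [wt_two, hπ, ← hV, wt_inv dv hc, wt_inv dv hd, wt_inv dv (hc.mul_left hd), ch_mul, t,
      map_mul, map_natCast]
    norm_cast
    push_cast at t' ⊢
    linear_combination t'
  have p1 := pw_mod L0 fun x => ((X x * V (π' x) : ℤ) : ℂ)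
  have p2 := pw_mod L0 fun x => (X x : ℂ)
  have p3 := pw_mod L0 fun x => ((X x * U (π' x) : ℤ) : ℂ)
  have q2 := (pw_const (F 1 : ℂ)).op p2 (· * ·)
  have q3 := (pw_const (2 ^ n : ℂ)).op p3 (· * ·)
  have z1 : (Lw a fun j => ((X j * V (π' j) : ℤ) : ℂ)) =
      Lw (al A' B') (cS (insert q S) fun k => (W k).val) := by
    rw [T.lw (Finset.subset_insert _ _), Finset.prod_insert qS]
    exact congrArg _ (funext fun j => by simp [hX, wt_nat dL, cp, hV])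
  have z2 : (Lw a fun j => (X j : ℂ)) = 0 := by
    have := Rk.Lw_rm (w := fun j => ch δ j) R ⟨δ.natAbs, by have := T.pos; omega, fun j : ℕ => by
      simp only [ch]
      rw [jacobiSym.mod_left' (a₂ := j) (b := δ.natAbs) (by rw [Nat.cast_add, Int.add_emod_right])]⟩
      hq (fun j => by simp [ch_mul]) S0 fun k => by
        obtain ⟨p, m, k⟩ := (hq.prime.dvd_finset_prod_iff _).1 k
        exact qS ((Nat.prime_dvd_prime_iff_eq hq (T.pm p m)).1 k ▸ m)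
    rw [T.lw le_rfl] at h0
    simp only [Pi.one_apply, mul_one] at h0
    rw [h0, mul_zero] at this
    rw [← this]
    exact congrArg _ (funext fun j => by simp [hX, wt_nat dL, cp])
  obtain ⟨y, iy, hy, -⟩ := alg R hD (f := fun x => X x * U (π' x)) fun x => by
    simp only [hX, wt_neg dL T.d4, map_neg, hU, hF, mul_neg, ev]
  simp only [e] at hb
  rw [Rk.Lw_add R ((pw_const _).op p1 (· * ·)) (q2.op q3 (· + ·)), Rk.Lw_add R q2 q3, Rk.Lw_smul,
    Rk.Lw_smul, Rk.Lw_smul, z1, z2, ← T.per] at hb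
  rw [← T.per] at hy
  have c1 {F : Type} [Field F] [CharZero F] : (D : F) ≠ 0 ∧ ((q * ∏ p ∈ S, p : ℕ) : F) ≠ 0 ∧
      (s0 δ c d : F) ≠ 0 := ⟨Nat.cast_ne_zero.2 D0, Nat.cast_ne_zero.2 L0, Int.cast_ne_zero.2 hs0⟩
  refine ⟨(b - 2 ^ n * y / (D * (q * ∏ p ∈ S, p : ℕ))) * r / s0 δ c d, ?_, ?_⟩
  · obtain ⟨c1, c2, c3⟩ := c1 (F := ℂ)
    simp only [map_div₀, map_mul, map_sub, map_pow, map_natCast, map_intCast, map_ofNat, hr]
    rw [Complex.ofReal_mul] at hb hy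
    field_simp
    linear_combination (D * (q * ∏ p ∈ S, p : ℕ) : ℂ) * hb - 2 ^ n * hy
  · obtain ⟨c1, c2, c3⟩ := c1 (F := ℂ_[2])
    have n1 : ‖(q : ℂ_[2])‖ = 1 := Ah.nrm_odd Ah.two_lt (hq.odd_of_ne_two fun k => qS (k ▸ T.two))
    have ir : IsIntegral ℤ r := IsIntegral.of_pow two_pos (by
      rw [show r ^ 2 = δ from (io : Qb →+* ℂ).injective (by
        rw [map_pow, RingHom.coe_coe, hr, map_intCast, ← Complex.ofReal_pow,
          Real.sq_sqrt (Int.cast_pos.2 T.pos).le, Complex.ofReal_intCast])]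
      exact isIntegral_algebraMap (x := δ))
    rw [Nat.cast_mul] at c2
    have c4 := left_ne_zero_of_mul c2
    have c5 := right_ne_zero_of_mul c2
    rw [show ι (b * r / s0 δ c d - (b - 2 ^ n * y / (D * (q * ∏ p ∈ S, p : ℕ))) * r / s0 δ c d) =
      (D * (∏ p ∈ S, p : ℕ) * s0 δ c d : ℂ_[2])⁻¹ * 2 ^ n * (ι (y * r) / q) by
        simp only [map_div₀, map_mul, map_sub, map_pow, map_natCast, map_intCast, map_ofNat,
          Nat.cast_mul]
        field_simp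
        ring, norm_mul, norm_mul, norm_div, n1, norm_pow, Ah.two_C, div_one,
      mul_right_comm, mul_assoc ‖_‖, ← mul_pow, one_div, inv_mul_cancel₀ two_ne_zero, one_pow, mul_one]
    exact (mul_le_of_le_one_right (norm_nonneg _) (Pl.nrm_le ι (iy.mul ir))).trans hm.le

theorem pf [NeZero l] (p : Pm S) (h : ∀ p, p.Prime → (p ∣ l ↔ p ∈ S)) : l.primeFactors = S :=
  Finset.ext fun k => Nat.mem_primeFactors.trans ⟨fun e => (h k e.1).1 e.2.1,
    fun e => ⟨p k e, (h k (p k e)).2 e, NeZero.ne l⟩⟩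

end Nm

open Nm

theorem ev0 [NeZero l] (ad : Ad δ) (pos : 0 < δ) (dv : δ.natAbs ∣ l) (x : ZMod l) :
    wt l (fun k => J(k | δ.natAbs)) (-x) = wt l (fun k => J(k | δ.natAbs)) x :=
  wt_neg dv (by have := ad.2; omega) x

theorem ev1 [NeZero l] (ad : Ad δ) (pos : 0 < δ) (dv : δ.natAbs ∣ l) {W : ZMod q → ZMod (2 ^ n)}
    {χ : GQ → ZMod (2 ^ n)} (X : Rb.Lx q n W χ) (W1 : W (-1) = 0) (ql : q ∣ l) (x : ZMod l) :
    wt l (fun k => J(k | δ.natAbs) * (W k).val) (-x) =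
      wt l (fun k => J(k | δ.natAbs) * (W k).val) x := by
  have := Fact.mk X.pr
  have hπ : ∀ x : ZMod l, (x.val : ZMod q) = ZMod.castHom ql (ZMod q) x := fun x => by
    rw [ZMod.castHom_apply, ZMod.natCast_val]
  rw [wt_two, wt_two, ev0 ad pos dv, hπ, hπ, map_neg]
  by_cases e : ZMod.castHom ql (ZMod q) x = 0
  · rw [e, neg_zero]
  · rw [← neg_one_mul, X.mul _ _ (by simp) e, W1, zero_add]

/-- **the numbers in the reciprocity law** -/
theorem num {w : ℕ} {I : ℍ → ℂ} {x y : P022.H218.L3.Mer} (h : RN N G a)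
    (p : Pu.ParY N a A B w I x y) (q : Tq δ A B A' B') (ad : Ad δ) (pos : 0 < δ) :
    ∃ S₀, Pm S₀ ∧ ∀ S, S₀ ⊆ S → Pm S → ∃ (ρ : ℚ) (ε : ℤ), ε * ε = 1 ∧
      Lw (al A' B') (cS S 1) = ρ * w0 A' B' ∧
      (∀ l : ℕ, l.Prime → l ∉ S → al A' B' l = J(l | δ.natAbs) * a l) ∧
      ∀ c d : ℕ, s0 δ c d ≠ 0 → ∃ m : ℕ,
        (∀ (L : ℕ) [NeZero L] (b : Qb), δ.natAbs ∣ L → (∀ p, p.Prime → (p ∣ L ↔ p ∈ S)) →
          c.Coprime L → d.Coprime L →
          io b * w0 A B = Lw a (fun k => sm c d (wt L fun k => J(k | δ.natAbs)) k) →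
          ε * b * rt δ = s0 δ c d * ρ) ∧
        (ρ = 0 → ∀ n l W χ, Rb.Lx l n W χ → l ∉ S → W (-1) = 0 → ∀ (L : ℕ) [NeZero L] (b : Qb),
          δ.natAbs ∣ L → (∀ p, p.Prime → (p ∣ L ↔ p ∈ insert l S)) → c.Coprime L → d.Coprime L →
          io b * w0 A B = Lw a (fun k => sm c d (wt L fun k => J(k | δ.natAbs) * (W k).val) k) →
          ∀ ι : Qb →+* ℂ_[2], ∃ x : Qb,
            io x * w0 A' B' = Lw (al A' B') (cS (insert l S) fun k => (W k).val) ∧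
            ‖ι (ε * b * rt δ / s0 δ c d - x)‖ * 2 ^ n ≤ 2 ^ m) := by
  obtain ⟨-, rfl, rfl⟩ := q
  obtain ⟨D, D0, hD⟩ := Lk.hd p.disc ⟨h, p.mat⟩
  obtain ⟨S₀, pm, H⟩ := tn ⟨h, p.mat⟩ p.disc ad pos
  refine ⟨S₀, pm, fun S s ps => ?_⟩
  have T := (H S s ps).2
  obtain ⟨ρ, hρ⟩ := T.rat h D0 hD
  obtain ⟨ε, e1, hr⟩ := T.ex_r
  refine ⟨ρ, ε, e1, hρ, fun l hl m => T.co l (Nat.Coprime.prod_right fun k e =>
    (Nat.coprime_primes hl (ps k e)).2 fun f => m (f ▸ e)), fun c d z => ?_⟩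
  obtain ⟨m, hm⟩ := num1 T h D0 hD z hr
  refine ⟨m, fun L _ b _ k hc hd hb => ?_, fun r0 n l W χ X lS W1 L _ b _ k hc hd hb ι => ?_⟩
  · rw [← num0 T (NeZero.ne L) (pf ps k) hc hd hr hb hρ]
    ring
  · rw [mul_comm (ε : Qb), mul_assoc b]
    exact hm (by rw [hρ, r0, Rat.cast_zero, zero_mul]) n l L W b X.pr lS X.mul W1 (NeZero.ne L)
      (pf (fun j e => (Finset.mem_insert.1 e).elim (· ▸ X.pr) (ps j)) k) hc hd hb ι

end Vale.Agent.P014T.Zr
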