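import Vale.Agent.P014T.Zr.Der
import Vale.Agent.P014T.Zr.Num
import Vale.Agent.P014T.Ct.St
import Vale.Agent.P014T.Dr.Shp

/-! # P014T, block Zr: the row `RR` -/

set_option autoImplicit false
set_option linter.all false

open scoped Classical MatrixGroups NumberTheorySymbols ComplexConjugate UpperHalfPlane
open NumberField Matrix

noncomputable section

namespace Vale.Agent.P014T.Zr

open Vale.Agent.P022 (Qb GQ)
open Vale.Agent.P022D.W (dec)
open Vale.Agent.P004S.Ga (K)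
open Vale.Agent.P004F (hq M2 sd)
open Vale.Agent.P004M.TE (Pt ga al)
open Vale.Agent.P027M.M (Mdl FF io cv)
open P004N (RN)
open Ah (am)
open Rk (Lw)
open Top (w0 El Pm nq)
open Rc (KZ REC sm)
open Dr (Hm Zn Gr Cd Ch aa)
open Kx.Tw (rz co Tq tw rt)
open Ew (rj ct cz)
open Pl (Dn il psi)
open Pl.Zw (Ce wt sn)
open Ct (Gam Bad Aq Lf Sm Lv en dl RR)
open Nm (Tn ch)

variable {Kz : KZ} {X : Mdl} {N w c n M D : ℕ} {G I : ℍ → ℂ} {a : ℕ → ℤ} {A B A' B' d : ℤ} {x y : FF}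
  {γ : SL(2, ℤ)} {S : Finset ℕ} {b : Pp.Bs}

theorem rg_of (H : REC Kz) (X : Mdl) (r : RN N G a) (p : Pu.ParY N a A B w I (cv x) (cv y))
    (g : Gam N I A B γ) : Rg Kz X N a p.disc x y γ := by
  intro ι P h lg lk
  obtain ⟨-, -, c0, μ, vol, o, e⟩ := g
  have c1 : (c0 : ℂ) ≠ 0 := Complex.ofReal_ne_zero.2 fun k => by
    obtain ⟨t, v, u0, v0, s⟩ := Rc.shape p
    obtain ⟨u, u', f, f'⟩ := vol
    obtain ⟨i, j, e1⟩ := (f _).1 ((s _).2 ⟨1, 0, rfl⟩)
    obtain ⟨i', j', e2⟩ := (f _).1 ((s _).2 ⟨0, 1, rfl⟩)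
    have z := abs_eq_zero.1 (f'.symm.trans k)
    have a1 := congrArg Complex.re e1
    have a2 := congrArg Complex.im e1
    have a3 := congrArg Complex.re e2
    have a4 := congrArg Complex.im e2
    simp at z a1 a2 a3 a4
    refine (mul_pos u0 v0).ne' ?_
    rw [a1, a4]
    linear_combination (i * j' - j * i') * z - (i' * u.re + j' * u'.re) * a2
  obtain ⟨R, l0, H⟩ := H X N G a A B w I x y (hq p.disc) ι P h lg r p lk
  refine ⟨R, l0, fun M n l el n0 M0 M2 Nl => ?_⟩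
  obtain ⟨u, ou, H⟩ := H M n l el n0 M0 M2 Nl
  refine ⟨-(u * μ), (ou.mul o).neg, fun c d z ad kz J _ s q κ ω R' wt ev hR => ?_⟩
  obtain ⟨b, θ, e1, e2, zn, e3⟩ := H c d γ z ad kz J s q κ ω R' c0 wt hR vol
  have m0 {F : Type} [Field F] [CharZero F] : (μ : F) ≠ 0 :=
    Int.cast_ne_zero.2 fun k => by simp [k] at o
  refine ⟨b / (-2 * μ), θ / (-2 * μ), by simp [e1, map_ofNat], ?_, zn, ?_⟩
  · have e4 : ((Es.sy I γ).im : ℂ) * w0 A B = μ * c0 := by exact_mod_cast e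
    have e5 := Complex.sub_conj (Es.sy I γ)
    simp only [Rc.sm_neg ev] at e2
    simp only [map_div₀, map_mul, map_neg, map_ofNat, map_intCast]
    push_cast at e5
    rw [div_mul_eq_mul_div, div_eq_iff (mul_ne_zero (by norm_num) m0)]
    refine mul_right_cancel₀ c1 ?_
    linear_combination (w0 A B : ℂ) * e2 + (Complex.I * Lw a (fun n => sm c d ω n) * w0 A B) * e5 +
      (-2 * Lw a fun n => sm c d ω n) * e4 +
      (2 * Lw a (fun n => sm c d ω n) * w0 A B * (Es.sy I γ).im) * Complex.I_mul_I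
  · rw [e3]
    congr 1
    have := m0 (F := K)
    push_cast
    field_simp
    ring

theorem tn_bad (r : RN N G a) (h : El A B) (ad : Top.Ad d) (pos : 0 < d) (pm : Pm S)
    (bad : Bad A B N a d S) : Tn d S a A B (A * d ^ 2) (B * d ^ 3) := by
  have w := Lk.w0_pos h
  have : (Lc.Wq (Top.sI A B)).IsElliptic := ⟨by
    rw [Lc.Wq, WeierstrassCurve.map_Δ]
    exact IsUnit.mk0 _ (by simpa using Rx.sI_ne h)⟩
  have d0 : d.natAbs ≠ 0 := by omega
  have S0 := Pl.Lw.pr_ne pm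
  have t0 := mul_ne_zero (mul_ne_zero (mul_ne_zero r.pos.ne' (Lk.bd_ne h)) d0) S0
  have s : (N * Lk.bd A B * d.natAbs * ∏ p ∈ S, p).primeFactors ⊆ S := fun p k => by
    obtain ⟨hp, k, -⟩ := Nat.mem_primeFactors.1 k
    rcases hp.dvd_mul.1 k with k | k
    · refine bad p hp (.inl ((Int.natCast_dvd_natCast.2 k).trans (Int.natAbs_dvd_natAbs.1 ?_)))
      simp only [Int.natAbs_natCast, Lk.bd, Int.natAbs_mul]
      exact Dvd.intro 1 (by ring)
    · obtain ⟨q, m, k⟩ := (hp.prime.dvd_finset_prod_iff _).1 k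
      exact (Nat.prime_dvd_prime_iff_eq hp (pm q m)).1 k ▸ m
  have t := Lk.at_of (Rx.md A B) r t0 (Dvd.intro _ (by rw [mul_assoc, mul_assoc]))
    (((dvd_mul_left _ _).mul_right _).mul_right _) fun p hp k => by_contra fun e =>
      k ((Finset.dvd_prod_of_mem _ (bad p hp (.inr e))).mul_left _)
  refine ⟨ad.2, pos, pm, bad 2 Nat.prime_two (.inl (Dvd.intro _ (by rw [mul_assoc, mul_assoc]; rfl))),
    ?_, fun k => ?_, Nm.w0_tw pos A B, fun n c => ?_⟩
  · rw [← Nat.prod_primeFactors_of_squarefree (Int.squarefree_natAbs.2 ad.1)]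
    exact Finset.prod_dvd_prod_of_subset _ _ _
      ((Nat.primeFactors_mono ((dvd_mul_left _ _).mul_right _) t0).trans s)
  · rw [← Nm.w0_tw pos, k, zero_mul] at w
    exact w.false
  · have c' := Nm.cop t0 s c
    have b := c'.coprime_dvd_right (((dvd_mul_left _ _).mul_right _).mul_right _)
    rw [Lk.al_twist h pos.ne' n (c'.coprime_dvd_right (Dvd.intro (N * ∏ p ∈ S, p) (by ring))),
      ← Lk.lf_md (Rx.md A B), t.2 n c', ch,
      ← jacobiSym.quadratic_reciprocity_one_mod_four (by have := ad.2; omega)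
        (Nat.coprime_two_right.1 (b.coprime_dvd_right (Int.natCast_dvd.1 (dvd_mul_right _ _)))),
      Int.natAbs_of_nonneg pos.le, mul_comm]

theorem gr_aq (L : Lf N a D b) (c1 : c.Prime) (c3 : 3 < c) (n : ℕ) :
    Gr (b.ρ n) (insert c b.S) a (Aq n N ∅ c) := by
  have k : ∀ {M l : ℕ}, l.Prime → l ≠ c → Aq n N ∅ c M → Aq n N ∅ c (M * l) := fun p e m =>
    ⟨mul_ne_zero m.1 p.ne_zero, m.2.1.mul_right _, m.2.2.1.mul_right _,
      m.2.2.2.1.mul_left ((Nat.coprime_primes p c1).2 e), by simp⟩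
  refine ⟨Finset.mem_insert_of_mem b.two, fun l P o s i m => ?_, fun l P φ o s f => ⟨?_, ?_⟩,
    fun M m => m.1, fun M => k Nat.prime_two (by omega),
    fun M l m p s _ => k p (fun e => s (e ▸ Finset.mem_insert_self _ _)) m⟩
  all_goals have s' : l ∉ b.S := fun j => s (Finset.mem_insert_of_mem j)
  · exact (congrArg (rz n).mapMatrix (b.unr l P i o s' m).1).trans (map_one _)
  · obtain ⟨ζ, χ, h1, -, -, h3⟩ := Dr.ex_cy (2 ^ n)
    have := h3 φ _ (P004S.Aq.cz_spec φ h1.pow_eq_one)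
    rw [ZMod.natCast_zmod_val] at this
    exact ((rz n).map_det _).symm.trans ((congrArg _ (b.det φ)).trans (this.symm.trans
      (h3 φ l (Dr.root_cong o (Dr.nd_two o (fun e => s' (e ▸ b.two)) n) f h1.pow_eq_one))))
  · rw [← map_intCast (rz n), ← (L.gd l P o fun j => absurd j s').2 φ f, trace_fin_two,
      trace_fin_two, map_add]
    rfl

theorem c24 (c1 : c.Prime) (c3 : 3 < c) : c ^ 2 % 24 = 1 := by
  have h2 : ¬ 2 ∣ c := fun k => by
    have := (Nat.prime_dvd_prime_iff_eq Nat.prime_two c1).1 k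
    omega
  have h3 : ¬ 3 ∣ c := fun k => by
    have := (Nat.prime_dvd_prime_iff_eq Nat.prime_three c1).1 k
    omega
  have : c % 24 = 1 ∨ c % 24 = 5 ∨ c % 24 = 7 ∨ c % 24 = 11 ∨ c % 24 = 13 ∨ c % 24 = 17 ∨
    c % 24 = 19 ∨ c % 24 = 23 := by omega
  rw [Nat.pow_mod]
  rcases this with e | e | e | e | e | e | e | e <;> rw [e]

/-- **row RR** -/
theorem rr (H : REC Kz) : RR Kz := by
  intro X N G a A B w I x y p γ d A' B' T h' b c g₀ r gm mb ⟨c1, c3, cN⟩ cS g0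
  have h := p.disc
  have d8 := mb.ad.2
  have d4 : d % 4 = 1 := by omega
  obtain ⟨P, o⟩ := P022K.GW.Pl.ex_ov Nat.prime_two
  obtain ⟨ι, hι⟩ := Ah.ex_ind o
  obtain ⟨lg, k⟩ := Lc.ex_lk (Rx.sI_ne h) (Rx.md A B) hι
  obtain ⟨lg', k'⟩ := Lc.ex_lk (Rx.sI_ne h') (Rx.md A' B') hι
  obtain ⟨m1, H1⟩ := rc_cl (rg_of H X r p gm) hι k
  obtain ⟨u, s, es, H2⟩ := Rx.rc_tw hι d8 T h h' k k'
  have tn : Tn d b.S a A B A' B' := T.a ▸ T.b ▸ tn_bad r h mb.ad mb.pos b.pr mb.bad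
  obtain ⟨D, D0, hD⟩ := Lk.hd h ⟨r, p.mat⟩
  obtain ⟨ρ, hρ⟩ := tn.rat r D0 hD
  obtain ⟨ε, e1, hr⟩ := tn.ex_r
  have sn0 := Nm.s0_ne (δ := d) c1.one_lt c1.one_lt
  obtain ⟨m2, H3⟩ := Nm.num1 tn r D0 hD sn0 hr
  have es0 : Ct.s0 c = s0 d c c := by
    rw [s0, jacobiSym.mod_left' (a₂ := 1) (by exact_mod_cast cN.of_mul_left N), jacobiSym.one_left,
      Ct.s0]
    push_cast
    ring
  have sK : (s0 d c c : K) ≠ 0 := Int.cast_ne_zero.2 sn0
  have eK : (ε : K) * ε = 1 := by exact_mod_cast e1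
  have c2 : ((2 : ℤ_[2]) : K) = 2 := by exact_mod_cast PadicInt.coe_natCast (p := 2) 2
  obtain ⟨ε', he⟩ : ∃ ε' : ℤ_[2]ˣ, (ε' : ℤ_[2]) = ε :=
    ⟨⟨ε, ε, by exact_mod_cast e1, by exact_mod_cast e1⟩, rfl⟩
  have eρ : ∀ n, b.ρ n = rj (hq h) n := fun n => by rw [Pp.Bs.ρ, mb.r]; rfl
  have hε : ∀ n g, en b n g = sd d g := fun n g =>
    (congrArg (rz n) (mb.ε g)).trans (map_intCast _ _)
  refine ⟨P, ι, lg', ρ, max (max m1 m2) c, o, hι, k', hρ, fun m n n' f M z v mm le n0 L Z Kk V => ?_⟩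
  simp only [max_le_iff] at mm
  have dM : d.natAbs ∣ M := tn.dvl L.pf.ge
  have aq : Aq n' N ∅ c M := ⟨L.ne, L.two, L.dv, (c1.coprime_iff_not_dvd.2 fun j =>
    cS (L.pf ▸ Nat.mem_primeFactors.2 ⟨c1, j, L.ne⟩)).symm, by simp⟩
  have ad : ∀ {M}, Aq n' N ∅ c M → Rc.Ad N M c c γ := fun q => ⟨c24 c1 c3, c24 c1 c3, q.2.2.2.1.symm,
    q.2.2.2.1.symm, cN.of_mul_right _, cN.of_mul_right _, gm.1, gm.2.1⟩
  have Gr := gr_aq mb.lf c1 c3 n'
  obtain ⟨zE, E, lk⟩ := Dr.shp n' _ _ a _ _ Gr (Z.raw ∅ _ c (by simp [Ct.Dx])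
    ⟨c1, c3, cN.of_mul_right _⟩ (Finset.mem_insert_self _ _) (Finset.empty_subset _)) g₀ g0
  have eδ : (b.ρ n' g₀ - 1).det = rz n' (dl b g₀) := by
    rw [dl, RingHom.map_det, map_sub, map_one]
    rfl
  obtain ⟨v1, v2⟩ := V
  rw [eδ] at lk
  rw [eρ] at Gr E lk v1 v2
  have Y := Ew.xy_ct (hq h) (j := n) (tw T) (s := sd d) (a := aa (rj (hq h) n') f (en b n))
    (fun g y => by rw [map_zsmul, Kx.Tw.ga_tw]) fun g => by
      rw [← hε]
      exact congrFun (aa_red h f le (RingHom.id _) _) g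
  have sc : ∀ {L : ℕ} {κ}, Ce L κ → d.natAbs ∣ L → ∀ g, ch d (κ g : ZMod L).val = sd d g :=
    fun C j g => (Te.sd_cyc d4 (C.act' j g)).symm
  refine ⟨?_, Ew.cz_tor _, ?_, fun ρ0 l W χ Q lS ml W1 WS => ?_⟩
  · rw [map_nsmul]
    exact nsmul_mem (Y.zq_iff.1 v1) 2
  · have := NeZero.mk L.ne
    obtain ⟨κ, C⟩ := Pl.Zw.ex_ce L.ne
    obtain ⟨β, θ, u1, a1, a2, zn, rc⟩ := H1 f (j := RingHom.id _) (π := AddMonoidHom.id _)
      (ω := wt M (ch d)) (β := dl b g₀ ^ 2) (z := v) (Ψ := en b n) le n0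
      ((pow_dvd_pow 2 (by omega)).trans L.two) L.dv (ad aq) C (Kk M aq) (fun _ _ => rfl)
      (by rw [RingHom.id_comp, red_rz f le]; exact v2) (fun _ _ => rfl)
      (fun g => by rw [C.wt_apply, sc C dM, ← hε]; rfl) Pl.Zw.wt_un (ev0 mb.ad mb.pos dM)
      fun g j => ⟨by rw [hε, Rx.sd_dec hι d8 j, Int.cast_one], fun t => by
        rw [Nm.wt_mul dM, C.wt_apply, sc C dM, Rx.sd_dec hι d8 j, one_mul]⟩
    have a3 := congrArg ι (Nm.num0 tn L.ne L.pf (ad aq).cl (ad aq).cl hr a2 hρ)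
    have a4 : θ * (ε * (s : ℤ_[2])) = s0 d c c * ρ := am.injective (by
      simpa only [map_mul, map_intCast, map_ratCast, a1, es] using a3)
    refine ⟨u * u1 * ε', Rx.rc_mono ?_ mm.1.1⟩
    have := Rx.rc_nsmul o (Rx.zn_tw hι d8 T zn) (H2 _ _ _ _ zn rc) 2
    rw [map_nsmul]
    refine (congrArg _ ?_).mp this
    rw [es0, Units.val_mul, Units.val_mul, he]
    push_cast
    rw [c2]
    linear_combination (2 * (u : ℤ_[2]) * (u1 : ℤ_[2]) * dl b g₀ ^ 2 * ε : K) * a4 -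
      (2 * (u : ℤ_[2]) * (u1 : ℤ_[2]) * dl b g₀ ^ 2 * θ * (s : ℤ_[2]) : K) * eK
  · have lc : l ≠ c := by omega
    have l' : l ∉ insert c b.S := fun j => (Finset.mem_insert.1 j).elim lc lS
    have lM : ¬ l ∣ M := fun j => lS (L.pf ▸ Nat.mem_primeFactors.2 ⟨Q.pr, j, L.ne⟩)
    have aq' := Gr.adl M l aq Q.pr l' lM
    have := NeZero.mk aq'.1
    have dL := dM.mul_right l
    have l2 : l ≠ 2 := fun e => lS (e ▸ b.two)
    have cd : Cd d.natAbs (en b n) := fun g j => by rw [hε, Te.sd_hm d4 j, Int.cast_one]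
    obtain ⟨w1, v3⟩ := v2
    obtain ⟨w2, v4⟩ := (lk M (Zn n) f (en b n) aq (cd.mono dM)).2.1
    rw [← map_pow, ← map_pow, red_rz f le] at v4
    obtain ⟨t, t0, ht⟩ := Y.ch_iff.1 (show Ch ⊤ _ v (zE M (Zn n) f (en b n)) from
      ⟨w1 - w2, fun g j => by rw [mulVec_sub]; linear_combination v3 g j - v4 g j⟩)
    obtain ⟨q1, q2, q3⟩ := der1 (h := h) T d4 Gr E f le aq dM (S := b.S) (fun q j => mb.bad q
      (Nat.prime_of_mem_primeFactors j) (.inl ((Int.natCast_dvd.2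
        (Nat.dvd_of_mem_primeFactors j)).trans (Dvd.intro (N * d) (by ring)))))
      (fun q j i => L.pf ▸ Nat.mem_primeFactors.2 ⟨j, i.trans dM, L.ne⟩)
      (fun q j i => tn.co q (Nat.Coprime.prod_right fun e k =>
        (Nat.coprime_primes j (b.pr e k)).2 fun f => i (f ▸ k))) (hε n) Q lS l' lM
      (y := cz (ct (hq h) (tw T) n) (2 • v)) (t := 2 • t) (k := 2) fun g => by
        have := ht g trivial
        rw [Ew.cz_apply, Ew.cz_apply, Ew.ct_apply _ _ (zE _ _ _ _ _)] at this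
        rw [map_nsmul, Pi.smul_apply, Ew.cz_apply, map_nsmul]
        linear_combination (norm := module) 2 • this
    obtain ⟨κ, C⟩ := Pl.Zw.ex_ce aq'.1
    obtain ⟨β, θ, u1, a1, a2, zn, rc⟩ := H1 f (j := il n) (π := sn n)
      (ω := wt (M * l) fun k => ch d k * (W k).val) (β := dl b g₀ ^ 2)
      (Ψ := (il n).toMonoidHom.comp (en b n) * psi Q) le n0
      ((pow_dvd_pow 2 (by omega)).trans aq'.2.1) aq'.2.2.1 (ad aq') C (Kk _ aq') (fun _ _ => rfl)
      (by rw [map_pow, map_pow]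
          exact (lk _ _ _ _ aq' (((cd.mono dL).map _).mul (Pl.psi_cd Q M))).2.1) Pl.Zw.sn_il
      (fun g => by
        rw [C.wt_apply, sc C dL, ← C.lx Q (dvd_mul_left _ _), Int.cast_mul, Int.cast_natCast,
          ZMod.natCast_zmod_val, ← hε, ← Pl.Zw.sn_psi Q, ← Pl.Zw.sn_il]
        rfl) Pl.Zw.wt_un (ev1 mb.ad mb.pos dL Q W1 (dvd_mul_left _ _))
      fun g j => by
        have z := Q.dz o l2.symm (WS 2 b.two) j
        exact ⟨by
          rw [MonoidHom.mul_apply, MonoidHom.comp_apply, hε, Rx.sd_dec hι d8 j, Pl.psi_apply, z]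
          simp, fun t => by
          rw [Nm.wt_two, Nm.wt_two, Nm.wt_mul dL, C.wt_apply, sc C dL, Rx.sd_dec hι d8 j, one_mul,
            ← Units.val_mul, C.lx_mul Q (dvd_mul_left _ _), z, zero_add]⟩
    obtain ⟨x', b1, b2⟩ := H3 (by rw [hρ, ρ0, Rat.cast_zero, zero_mul]) n l (M * l) W β Q.pr lS Q.mul
      W1 aq'.1 (by rw [Nat.primeFactors_mul L.ne Q.pr.ne_zero, Q.pr.primeFactors, L.pf,
        Finset.union_comm, Finset.insert_eq]) (ad aq').cl (ad aq').cl a2 ι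
    have ul : IsUnit (l : ℤ_[2]) := PadicInt.isUnit_iff.2 (PadicInt.norm_natCast_eq_one_iff.2
      ((Nat.coprime_primes Nat.prime_two Q.pr).2 l2.symm))
    refine ⟨_, _, io, x', θ * (ε * (s : ℤ_[2])) / s0 d c c, u * u1 * ε' * ul.unit, q1,
      by rw [smul_comm, smul_comm (2 ^ n), t0, nsmul_zero, zsmul_zero], q2, q3, b1, ?_,
      Rx.rc_mono ?_ mm.1.1⟩
    · refine le_trans (le_of_eq ?_) (b2.trans (pow_le_pow_right₀ one_le_two mm.1.2))
      simp only [map_sub, map_div₀, map_mul, map_intCast, a1, es]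
    · refine (congrArg _ ?_).mp (Rx.rc_zsmul o (Rx.zn_tw hι d8 T zn) (H2 _ _ _ _ zn rc) (2 * l))
      rw [es0, Units.val_mul, Units.val_mul, Units.val_mul, he, ul.unit_spec]
      push_cast
      rw [c2]
      field_simp
      linear_combination (-dl b g₀ ^ 2 * θ * l : K) * eK

end Vale.Agent.P014T.Zr
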