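import Vale.Agent.P014T.Zr.Gal

/-! # P014T, block Zr: the derived class on the twisted curve -/

set_option autoImplicit false
set_option linter.all false

open scoped Classical NumberTheorySymbols
open NumberField Matrix

noncomputable section

namespace Vale.Agent.P014T.Zr

open Vale.Agent.P022 (Qb GQ)
open Vale.Agent.P022K.G2 (In)
open Vale.Agent.P022E.GW (Ov)
open Vale.Agent.P004F (hq M2 sd)
open Vale.Agent.P004M.TE (Pt ga al)
open Top (El nq)
open Dr (Hm Zn Fm Gr Eu Cd aa Ug)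
open Kx.Tw (rz co Tq tw)
open Ew (rj ct)
open Pl (Dn il psi)
open Pl.Zw (sn tz)

variable {A B A' B' D : ℤ} {n N' M l : ℕ} {S T : Finset ℕ} {a : ℕ → ℤ} {Ad : ℕ → Prop} {z : Fm N'}

/-- the reduced family -/
def zr (f : Zn N' →+* Zn n) (z : Fm N') : Fm n := fun M R _ j Ψ => z M R (j.comp f) Ψ

section

variable (h : El A B) (f : Zn N' →+* Zn n) (le : n ≤ N')
include le

theorem rj_red (g : GQ) : rj (hq h) n g = f.mapMatrix (rj (hq h) N' g) := by
  ext i k
  exact (red_rz f le _).symm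

theorem gr_red (G : Gr (rj (hq h) N') T a Ad) : Gr (rj (hq h) n) T a Ad :=
  have f : Zn N' →+* Zn n := ZMod.castHom (pow_dvd_pow 2 le) _
  ⟨G.two, fun l P o s i m => by rw [rj_red h f le, G.unr l P o s i m, map_one], fun l P φ o s k => by
    obtain ⟨e1, e2⟩ := G.frb l P φ o s k
    rw [rj_red h f le, ← f.map_det, e1, map_natCast, ← map_intCast f, ← e2, trace_fin_two,
      trace_fin_two, map_add]
    exact ⟨rfl, rfl⟩, G.pos, G.ad2, G.adl⟩

theorem eu_red (E : Eu (rj (hq h) N') T a Ad z) : Eu (rj (hq h) n) T a Ad (zr f z) :=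
  ⟨fun M R _ j Ψ m c => aa_red h f le j Ψ ▸ E.co M R _ Ψ m c,
    fun M R R' _ _ k j Ψ g i m => E.map M R R' k _ Ψ g i m, fun M R _ j Ψ => E.two M R _ Ψ,
    fun M R _ j Ψ => E.odd M R _ Ψ⟩

end

theorem ug (h : El A B) (n : ℕ) {p : ℕ} {P : Ideal (𝓞 Qb)} (o : Ov p P) (s : p ∉ Cp.Sb A B) :
    Ug (rj (hq h) n) p P := by
  have nd := Cp.nd_of (hq h) o.1 s
  have p2 : p ≠ 2 := fun e => nd (by rw [e]; exact dvd_mul_right _ _)
  have X := Ew.xy_co (hq h) n
  refine ⟨o, p2, fun i m => ?_, fun φ k => ?_⟩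
  · refine Matrix.toLin'.injective (LinearMap.ext fun v => X.inj ?_)
    rw [toLin'_apply, toLin'_apply, one_mulVec, X.act]
    exact Cp.ur_pt (n := n) o nd m (by rw [nsmul_sub, ← map_nsmul, Ew.e_tor, map_zero, sub_zero])
  · obtain ⟨ζ, χ, h1, -, -, h3⟩ := Dr.ex_cy (2 ^ n)
    have := h3 φ _ (P004S.Aq.cz_spec φ h1.pow_eq_one)
    rw [ZMod.natCast_zmod_val] at this
    exact ((rz n).map_det _).symm.trans ((congrArg _ (Ki.det_mt _ φ)).trans (this.symm.trans
      (h3 φ p (Dr.root_cong o (Dr.nd_two o p2 n) k h1.pow_eq_one))))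

/-- the derived class -/
def z1 (h : El A B) (q : Tq D A B A' B') (f : Zn N' →+* Zn n) (z : Fm N') (ε : GQ →* Zn n) (M : ℕ)
    {W : ZMod l → Zn n} {χ : GQ → Zn n} (X : Rb.Lx l n W χ) (g : GQ) : Pt A' B' :=
  tw q (co (hq h) n (sn n ∘ z (M * l) (Dn n) ((il n).comp f)
    ((il n).toMonoidHom.comp ε * psi X) g))

theorem der1 {h : El A B} (q : Tq D A B A' B') (D4 : D % 4 = 1) (G : Gr (rj (hq h) N') T a Ad)
    (E : Eu (rj (hq h) N') T a Ad z) (f : Zn N' →+* Zn n) (le : n ≤ N') (m : Ad M)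
    (dM : D.natAbs ∣ M) (hS : Cp.Sb A B ⊆ S) (hD : ∀ p, p.Prime → p ∣ D.natAbs → p ∈ S)
    (ha : ∀ l, l.Prime → l ∉ S → al A' B' l = J(l | D.natAbs) * a l) {ε : GQ →* Zn n}
    (hε : ∀ g, ε g = sd D g) {W : ZMod l → Zn n} {χ : GQ → Zn n} (X : Rb.Lx l n W χ) (lS : l ∉ S)
    (lT : l ∉ T) (lM : ¬ l ∣ M) {y : GQ → Pt A' B'} {t : Pt A' B'} {k : ℤ}
    (hy : ∀ g, y g = k • tw q (co (hq h) n (z M (Zn n) f ε g)) + (ga g t - t)) :
    Rb.Cn n ((k * l) • z1 h q f z ε M X) ∧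
    (∀ g ∈ In (insert l S : Finset ℕ), ((k * l) • z1 h q f z ε M X) g = 0) ∧
    ∀ g j, ((k * l) • z1 h q f z ε M X) (g * j) = ((k * l) • z1 h q f z ε M X) g +
      ga g (((k * l) • z1 h q f z ε M X) j) + (χ g).val • ga g (nq A' B' l • y j +
        (ga j (-nq A' B' l • t) - -nq A' B' l • t)) := by
  have Q := Te.qd D4
  have cd : Cd D.natAbs ε := fun g m => by rw [hε, Q.cd g m, Int.cast_one]
  have sq : ∀ g, ε g ^ 2 = 1 := fun g => by rw [hε, _root_.sq, ← Int.cast_mul, Q.sq, Int.cast_one]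
  have fb : ∀ l P φ, Ov l P → l ∉ T ∪ S → P022E.GW.Fb l P φ → (al A' B' l : Zn n) = ε φ * a l :=
    fun l P φ o s k => by
      have s' : l ∉ S := fun j => s (Finset.mem_union_right _ j)
      rw [ha l o.1 s', hε, Q.fb l P φ o (fun j => s' (hD l o.1 j)) k, Int.cast_mul]
  have G' := Pl.Zw.gr_tw cd sq fb (Te.gr_mono (gr_red h le G) Finset.subset_union_left
    fun _ _ _ => rfl) fun p j k => Finset.mem_union_right _ (hD p j k)
  have E' := Pl.Zw.eu_tw cd sq fb (Te.eu_mono (eu_red h f le E) Finset.subset_union_left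
    fun _ _ _ => rfl)
  have l' : l ∉ T ∪ S := fun j => (Finset.mem_union.1 j).elim lT lS
  have e : ∀ g, Dr.am (rj (hq h) n) (RingHom.id _) ε g = ε g • rj (hq h) n g := fun g => by
    ext; simp [Dr.am, aa]
  have Y := Ew.xy_ct (hq h) (j := n) (tw q) (s := sd D)
    (a := Dr.am (rj (hq h) n) (RingHom.id _) ε) (fun g y => by rw [map_zsmul, Kx.Tw.ga_tw])
    fun g => by rw [e, hε]; rfl
  obtain ⟨⟨d1, d2, d3, -⟩, d4⟩ := Pl.du G' E' ⟨m, dM⟩ l' lM X Y.act
  have b : ∀ g, Pl.bot (tz ε (zr f z)) M g = z M (Zn n) f ε g := fun g => by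
    rw [Pl.bot, tz, mul_one]
    rfl
  refine ⟨⟨d1.comp fun v => (k * l) • v, fun g => by
    rw [Pi.smul_apply, smul_comm]; exact (congrArg _ (d2 g)).trans (zsmul_zero _)⟩,
    fun i ⟨p, hp, P, o, hi⟩ => ?_, fun g j => ?_⟩
  · simp only [Finset.coe_insert, Set.mem_insert_iff, not_or, Finset.mem_coe] at hp
    have U := ug h n o fun j => hp.2 (hS j)
    have := Dr.unr0 G' E' (G'.adl M l ⟨m, dM⟩ X.pr l' lM) (ι := il n) (Pl.psi_cd X M)
      (fun g => ⟨2, by rw [Pl.psi_apply, add_sub_cancel_left, _root_.sq, TrivSqZeroExt.inr_mul_inr]⟩)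
      ⟨o, U.ne, fun i m => by
        rw [e, U.unr i m, cd i (Dr.inert_Hm o (fun j => hp.2 (hD p o.1 j)) m), one_smul],
        fun φ k => by rw [e, det_smul, U.det φ k, Fintype.card_fin, sq, one_mul]⟩ hi
      (by rw [Pl.psi_apply, X.ur o hp.1 hi, TrivSqZeroExt.inr_zero, add_zero])
    rw [Pi.smul_apply, z1, show z _ _ _ _ i = 0 from this, show sn n ∘ (0 : Fin 2 → Dn n) = 0 from
      funext fun _ => map_zero _, map_zero, map_zero, zsmul_zero]
  · have k1 := congrArg (ga g) (d4 j)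
    have k2 : z1 h q f z ε M X (g * j) = z1 h q f z ε M X g + ga g (z1 h q f z ε M X j) + _ := d3 g j
    rw [b] at k1
    simp only [Pi.smul_apply, k2, hy, nq, map_add, map_sub, map_zsmul, Ew.ct_apply] at k1 ⊢
    linear_combination (norm := module) ((χ g).val * k) • k1

end Vale.Agent.P014T.Zr
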