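import Vale.Agent.P014T.Rc.Even
import Vale.Agent.P014T.Rx.Tw
import Vale.Agent.P014T.Pl.Zw
import Vale.Agent.P014T.Te.Eu
import Vale.Agent.P014T.Ew.Dic
import Vale.Agent.P014T.Nr.Cor

/-! # P014T, block Zr: the reciprocity law for the classes of the Euler system -/

set_option autoImplicit false
set_option linter.all false

open scoped Classical MatrixGroups
open NumberField Matrix

noncomputable section

namespace Vale.Agent.P014T.Zr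

open Vale.Agent.P022 (Qb GQ)
open Vale.Agent.P022D.W (dec)
open Vale.Agent.P022E.GW (Ov)
open Vale.Agent.P004S.Ga (K O)
open Vale.Agent.P004F (hq M2 sd)
open Vale.Agent.P004F.Rc (mq hn)
open Vale.Agent.P004M.TE (Pt ga)
open Vale.Agent.P027M.M (Mdl FF io)
open Ah (Ind am)
open Lc (Lk)
open Sg (sF)
open Rk (Lw)
open Cp (cp)
open Wm (Fx)
open Top (w0 El)
open Rc (KZ rg sm zw Wt RCE)
open Dr (Hm Zn Fm Gr Eu Cd Ch aa cor Co)
open Kx.Tw (rz co Tq tw rt)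
open Ew (rj ct)
open Pl.Zw (Ce Jx so pa ka)

variable {Kz : KZ} {X : Mdl} {N : ℕ} {a : ℕ → ℤ} {A B A' B' D : ℤ} {x y : FF} {γ : SL(2, ℤ)}
  {ι : Qb →+* ℂ_[2]} {P : Ideal (𝓞 Qb)} {n N' m : ℕ}

variable (Kz X N a) in
/-- the law for one symbol (the end of the text of `RCE`) -/
def Rg (h : El A B) (x y : FF) (γ : SL(2, ℤ)) : Prop :=
  ∀ ι P (_ : Ind ι P) (lg : Fx A B (dec P) →+ K), Lk ι lg →
  ∃ R : Fx A B (dec P), lg R ≠ 0 ∧ ∀ M n l : ℕ, l = M * 2 ^ n → 0 < n → 0 < M → 2 ∣ M → N ∣ l →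
    ∃ u : ℤ, Odd u ∧ ∀ (c d : ℕ) z, Rc.Ad N l c d γ →
      Kz X A B x y l n (sF c (rg l γ 0)) (sF d (rg l γ 1)) z →
      ∀ (J : Type) [Fintype J] s p (κ : J → ℤ) (ω : ZMod l → ℤ) R', Wt l (dec P) s p κ ω →
        (∀ x, ω (-x) = ω x) → 2 ^ n • R' = R.1 → ∃ (b : Qb) (θ : K), am θ = ι b ∧
          io b * w0 A B = Lw a (fun n => sm c d ω n) ∧
          Cp.Zn (dec P) n (zw s p (fun i => ω (κ i)) z) ∧
          4 • Iv.iv P (cp (Ki.wp (hq h)) n (Bt.dd A B R') (zw s p (fun i => ω (κ i)) z)) =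
            mq (hn n * lg R * (4 * u * θ))

theorem rg_ex (H : RCE Kz) (X : Mdl) {G I : UpperHalfPlane → ℂ} {w : ℕ} (r : P004N.RN N G a)
    (p : Pu.ParY N a A B w I (P027M.M.cv x) (P027M.M.cv y)) :
    ∃ γ : SL(2, ℤ), ¬ (N : ℤ) ∣ γ 1 0 ∧ ¬ (N : ℤ) ∣ γ 1 1 ∧ Rg Kz X N a p.disc x y γ :=
  H X N G a A B w I x y _ r p

variable (Kz X) in
/-- the family `z` is `β` times the corestriction of the classes of the symbols of level `M * n0` -/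
def Ln (h : El A B) (x y : FF) (c d : ℕ) (γ : SL(2, ℤ)) (β : ℤ_[2]) (n0 : ℕ) {N' : ℕ}
    (Ad : ℕ → Prop) (z : Fm N') : Prop := ∀ M, Ad M → ∃ (v : GQ → Fin 2 → Zn N') (z' : GQ → Pt A B),
  Kz X A B x y (M * n0) N' (sF c (rg (M * n0) γ 0)) (sF d (rg (M * n0) γ 1)) z' ∧
  (∀ g ∈ Hm (M * n0), z' g = co (hq h) N' (v g)) ∧
  ∀ (R : Type) [CommRing R] (j : Zn N' →+* R) (Ψ : GQ →* R), Cd M Ψ →
    Ch ⊤ (aa (rj (hq h) N') j Ψ) (z M R j Ψ) (j (rz N' β) • cor (rj (hq h) N') j Ψ (Hm (M * n0)) v)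

/-- from `Nr.raw` and `Dr.shp` -/
theorem ch_cor {ρ : GQ →* M2 (Zn N')} {R : Type} [CommRing R] {j : Zn N' →+* R} {Ψ : GQ →* R}
    {M L : ℕ} {v v' : GQ → Fin 2 → Zn N'} {z : GQ → Fin 2 → R} {r : R} (M0 : M ≠ 0) (L0 : L ≠ 0)
    (cd : Cd M Ψ) (c : Ur.Cr (Hm M) (Hm L) (fun _ => 1) (Nr.rr ρ) v v')
    (e : Ch ⊤ (aa ρ j Ψ) z (r • cor ρ j Ψ (Hm M) v')) :
    Ch ⊤ (aa ρ j Ψ) z (r • cor ρ j Ψ (Hm L) v) := by
  obtain ⟨w, hw⟩ := e
  obtain ⟨t, ht⟩ := (Nr.cor_cr0 j Ψ (Dr.Hm_open L0) (fun g k => cd g (c.le k))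
    (c.z1 (Nr.rp ρ _))).uniq (Nr.cor_cr j Ψ (Dr.Hm_open M0) cd c) (Nr.rp _ ⊤)
  refine ⟨w + r • t, fun g k => ?_⟩
  rw [eq_add_of_sub_eq (hw g k), Pi.smul_apply, Pi.smul_apply, ht g k, Nr.tw_aa, mulVec_add,
    mulVec_smul]
  module

theorem zn_congr {H : Subgroup GQ} {z z' : GQ → Pt A B} (q : Cp.Zn H n z) (e : ∀ g ∈ H, z' g = z g) :
    Cp.Zn H n z' :=
  ⟨by simpa only [show (fun g : H => z' g) = fun g : H => z g from funext fun g => e g g.2] using q.lc,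
    fun g p k r => by rw [e _ (mul_mem p r), e g p, e k r, q.co g p k r],
    fun g p => by rw [e g p, q.tr g p]⟩

theorem zn_cob {H : Subgroup GQ} {z z' : GQ → Pt A B} {t : Pt A B} (q : Cp.Zn H n z)
    (t0 : 2 ^ n • t = 0) (e : ∀ g ∈ H, z' g = z g + (ga g t - t)) : Cp.Zn H n z' :=
  zn_congr (q.add (Cp.zn_dd (x := t) (t0 ▸ zero_mem _))) e

theorem rc_div {h : El A B} {lg : Fx A B (dec P) →+ K} {z : GQ → Pt A B} {μ : K} {e : ℕ}
    (o : Ov 2 P) (q : Cp.Zn (dec P) n z) (r : Top.Rc h P lg m n (2 ^ e • z) (2 ^ e * μ)) :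
    Top.Rc h P lg (m + e) n z μ := (Rx.rc_iff o q).2 fun y => by
  have := (Rx.rc_iff o (Rx.Zn.nsmul q _)).1 r y
  rw [show (⟨2 ^ e • z, _⟩ : Bt.Zl A B (dec P)) = 2 ^ e • ⟨z, q.mem⟩ from rfl, map_nsmul] at this
  rw [pow_add, mul_comm, mul_smul, map_nsmul, AddMonoidHom.nsmul_apply, this, map_nsmul lg (2 ^ e),
    nsmul_eq_mul]
  congr 1
  push_cast
  ring

theorem red_rz (f : Zn N' →+* Zn n) (le : n ≤ N') (u : ℤ_[2]) : f (rz N' u) = rz n u := by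
  rw [RingHom.ext_zmod f (ZMod.castHom (pow_dvd_pow 2 le) _)]
  exact DFunLike.congr_fun (PadicInt.zmod_cast_comp_toZModPow n N' le) u

theorem aa_red (h : El A B) (f : Zn N' →+* Zn n) (le : n ≤ N') {R : Type} [CommRing R]
    (j : Zn n →+* R) (Ψ : GQ →* R) :
    aa (rj (hq h) N') (j.comp f) Ψ = aa (rj (hq h) n) j Ψ := by
  funext g
  ext i k
  simp only [aa, Ew.rj_apply, Matrix.smul_apply, map_apply, RingHom.comp_apply, red_rz f le]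

/-- an integer with the same norm and the same reduction -/
theorem ex_int (β : ℤ_[2]) (n : ℕ) :
    ∃ (δ : ℤ) (u : ℤ_[2]ˣ), (δ : ℤ_[2]) = u * β ∧ rz n β = δ := by
  by_cases h : β = 0
  · exact ⟨0, 1, by simp [h], by simp [h]⟩
  obtain ⟨b, e⟩ := Ideal.mem_span_singleton.1 (PadicInt.appr_spec (n + β.valuation + 1) β)
  have s := PadicInt.unitCoeff_spec h
  have u : IsUnit (1 - 2 * (2 ^ n * b * ((PadicInt.unitCoeff h)⁻¹ : ℤ_[2]ˣ))) :=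
    IsLocalRing.isUnit_one_sub_self_of_mem_nonunits _ (mul_mem_nonunits_left (by
      rw [PadicInt.mem_nonunits]
      simpa using PadicInt.norm_p (p := 2) ▸ (by norm_num : ((2 : ℕ) : ℝ)⁻¹ < 1)))
  refine ⟨β.appr (n + β.valuation + 1), u.unit, ?_, ?_⟩
  · have := (PadicInt.unitCoeff h).inv_mul
    rw [u.unit_spec, Int.cast_natCast]
    push_cast at e s
    linear_combination -e + (2 * 2 ^ n * b * ((PadicInt.unitCoeff h)⁻¹ : ℤ_[2]ˣ)) * s +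
      (2 * 2 ^ n * b * 2 ^ β.valuation) * this
  · have := congrArg (rz n) e
    rwa [map_sub, map_mul, map_pow, map_natCast, map_natCast, add_assoc, pow_add, ← Nat.cast_pow,
      ZMod.natCast_self, zero_mul, zero_mul, sub_eq_zero, ← add_assoc, ← Int.cast_natCast] at this

/-- **the law for the class with weight `ω`** -/
theorem rc_cl {h : El A B} (H : Rg Kz X N a h x y γ) (hι : Ind ι P) {lg : Fx A B (dec P) →+ K}
    (k : Lk ι lg) : ∃ m, ∀ {n N' L c d : ℕ} {v : GQ → Fin 2 → Zn N'} {z' : GQ → Pt A B}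
      (f : Zn N' →+* Zn n) {R : Type} [CommRing R] {j : Zn n →+* R} {Ψ : GQ →* R} {π : R →+ Zn n}
      {ω : ZMod L → ℤ} {κ : GQ →* (ZMod L)ˣ} {z : GQ → Fin 2 → R} {β : ℤ_[2]}, n ≤ N' → 0 < N' →
      2 ^ (N' + 1) ∣ L → N ∣ L → Rc.Ad N L c d γ → Ce L κ →
      Kz X A B x y L N' (sF c (rg L γ 0)) (sF d (rg L γ 1)) z' →
      (∀ g ∈ Hm L, z' g = co (hq h) N' (v g)) →
      Ch ⊤ (aa (rj (hq h) N') (j.comp f) Ψ) z
        (j.comp f (rz N' β) • cor (rj (hq h) N') (j.comp f) Ψ (Hm L) v) →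
      (∀ s r, π (j s * r) = s * π r) → (∀ g, π (Ψ g) = ω (κ g)) → (∀ t, ω t ≠ 0 → IsUnit t) →
      (∀ t, ω (-t) = ω t) → (∀ g ∈ dec P, Ψ g = 1 ∧ ∀ u : (ZMod L)ˣ, ω (κ g * u) = ω u) →
      ∃ (b : Qb) (θ : K) (u : ℤ_[2]ˣ), am θ = ι b ∧ io b * w0 A B = Lw a (fun i => sm c d ω i) ∧
        Cp.Zn (dec P) n (fun g => co (hq h) n (π ∘ z g)) ∧
        Top.Rc h P lg m n (fun g => co (hq h) n (π ∘ z g)) ((u * β : ℤ_[2]) * θ) := by
  obtain ⟨R0, r0, H⟩ := H ι P hι lg k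
  obtain ⟨m, hm⟩ := Rx.one h hι k r0
  refine ⟨m + 2, fun {n N' L c d v z'} f {R} _ {j Ψ π ω κ z β} le' N0 ⟨M, eL⟩ NL ad C kz e ch hπ hω un
    ev inv => ?_⟩
  have o := hι.ov
  have := Pl.Zw.fin_jx C.ne
  have := Fintype.ofFinite (Jx L)
  obtain ⟨u, ou, H⟩ := H (2 * M) N' L (by rw [eL]; ring) N0
    (Nat.pos_of_ne_zero fun z => C.ne (by rw [eL, pow_succ, mul_assoc, z, mul_zero])) ⟨M, rfl⟩ NL
  obtain ⟨R', eR⟩ := (Ki.pr (hq h)).dvp N' R0.1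
  obtain ⟨b, θ, e1, e2, zn, e3⟩ := H c d z' ad kz (Jx L) (so L) (pa L) (ka κ) ω R'
    ⟨inferInstance, Pl.Zw.tr L, fun i => C.cyc _, un, fun g p => C.inv (inv g p).2⟩ ev eR
  have r1 := rc_div (e := 2) (μ := u * θ) o zn (by
    have := hm _ 4 _ _ R' zn eR e3
    rwa [show (4 : K) * u * θ = 2 ^ 2 * (u * θ) by ring] at this)
  obtain ⟨e', rfl⟩ := Nat.exists_eq_add_of_le le'
  have zn' := Rx.Zn.down zn
  have r2 := Rx.rc_down o zn r1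
  obtain ⟨δ, u', d1, d2⟩ := ex_int β n
  rw [aa_red h f le', show cor (rj (hq h) _) (j.comp f) Ψ (Hm L) v =
    cor (rj (hq h) n) j Ψ (Hm L) fun g => f ∘ v g from funext fun g => by
      rw [cor, cor, aa_red h f le']; rfl] at ch
  obtain ⟨t, t0, ht⟩ := C.ch_eq hπ (Ew.xy_co (hq h) n).act hω (z := 2 ^ e' • z')
    (fun g p => by rw [Ew.co_red _ le', Pi.smul_apply, e g p, Nat.add_sub_cancel_left])
    (δ := δ) (by rw [RingHom.comp_apply, red_rz f le', d2, map_intCast]) ch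
  have ht' : ∀ g ∈ dec P, co (hq h) n (π ∘ z g) =
      (δ • 2 ^ e' • zw (so L) (pa L) (fun i => ω (ka κ i)) z') g + (ga g t - t) := fun g p => by
    rw [ht g (inv g p).1 (inv g p).2]
    simp only [Pi.smul_apply, zw, map_nsmul, Finset.smul_sum, smul_comm (2 ^ e')]
  have zn2 := zn_cob (Rx.Zn.zsmul zn' δ) t0 ht'
  have uu : IsUnit (u : ℤ_[2]) := PadicInt.isUnit_iff.2 (by
    rw [PadicInt.norm_intCast_eq_one_iff, Nat.cast_ofNat, Int.isCoprime_two_right]; exact ou)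
  refine ⟨b, θ, u' * uu.unit, e1, e2, zn2, ?_⟩
  have r3 := Rx.rc_km o (Rx.Zn.zsmul zn' δ) (Rx.rc_zsmul o zn' r2 δ) zn2 (t := t) fun g p =>
    sub_eq_of_eq_add' (ht' g p)
  rwa [show ((δ : K) * (u * θ)) = ((u' * uu.unit : ℤ_[2]ˣ) * β : ℤ_[2]) * θ by
    rw [← PadicInt.coe_intCast, d1, Units.val_mul, uu.unit_spec]
    push_cast
    ring] at r3

end Vale.Agent.P014T.Zr
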