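import Vale.Agent.P014T.Zr.Num

/-! # P014T, block Zr: the numbers in the reciprocity law, two-adic form -/

set_option autoImplicit false
set_option linter.all false

open scoped Classical NumberTheorySymbols UpperHalfPlane

noncomputable section

namespace Vale.Agent.P014T.Zr.Nm

open Vale.Agent.P022 (Qb GQ)
open Vale.Agent.P004S.Ga (K)
open Vale.Agent.P004M.TE (al)
open Vale.Agent.P027M.M (io)
open P004N (RN)
open Top (El Ad Pm sI w0 cS)
open Rk (Lw)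
open Pl.Zw (wt)
open Kx.Tw (Tq rt)
open Ah (am)
open Rc (sm)
open Lc (Wq)

variable {δ A B A' B' : ℤ} {N l c d D : ℕ} {G : ℍ → ℂ} {a : ℕ → ℤ} {S : Finset ℕ}

/-- **the twist, for a set which contains the bad primes** -/
theorem tn_bad (R : RN N G a) (h : El A B) (q : Tq δ A B A' B') (ad : Ad δ) (pos : 0 < δ) (p : Pm S)
    (bad : ∀ p : ℕ, p.Prime →
      (p : ℤ) ∣ 2 * N * δ * (4 * A ^ 3 + 27 * B ^ 2) ∨ al A B p ≠ a p → p ∈ S) :
    Tn δ S a A B A' B' := by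
  obtain ⟨-, rfl, rfl⟩ := q
  have w := Lk.w0_pos h
  have : (Wq (sI A B)).IsElliptic := ⟨by
    rw [Wq, WeierstrassCurve.map_Δ]
    exact IsUnit.mk0 _ (by simpa using La.Pe.sI_ne h)⟩
  have t0 : N * (Lk.bd A B * δ.natAbs) ≠ 0 :=
    mul_ne_zero R.pos.ne' (mul_ne_zero (Lk.bd_ne h) (by omega))
  have s : (N * (Lk.bd A B * δ.natAbs)).primeFactors ⊆ S := fun k m =>
    bad k (Nat.prime_of_mem_primeFactors m) (Or.inl (Int.natCast_dvd.2 (by
      rw [show 2 * N * δ * (4 * A ^ 3 + 27 * B ^ 2) = N * (2 * (4 * A ^ 3 + 27 * B ^ 2) * δ) by ring,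
        Int.natAbs_mul, Int.natAbs_mul _ δ]
      exact Nat.dvd_of_mem_primeFactors m)))
  have S0 := Pl.Lw.pr_ne p
  have t := Lk.at_of (La.Pe.md_sI A B) R (mul_ne_zero S0 t0) ((dvd_mul_right _ _).mul_left _)
    (((dvd_mul_right _ _).mul_left _).mul_left _) fun k hk e => by_contra fun f =>
      e ((Finset.dvd_prod_of_mem _ (bad k hk (Or.inr f))).mul_right _)
  have two := bad 2 Nat.prime_two (Or.inl (((dvd_mul_right _ _).mul_right _).mul_right _))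
  refine ⟨ad.2, pos, p, two, ?_, fun k => ?_, w0_tw pos A B, fun n c => ?_⟩
  · rw [← Nat.prod_primeFactors_of_squarefree (Int.squarefree_natAbs.2 ad.1)]
    exact Finset.prod_dvd_prod_of_subset _ _ _
      ((Nat.primeFactors_mono ((dvd_mul_left _ _).mul_left _) t0).trans s)
  · rw [← w0_tw pos, k, zero_mul] at w
    exact w.false
  · have c' := cop t0 s c
    rw [Lk.al_twist h pos.ne' n (c'.coprime_dvd_right (dvd_mul_left _ _)),
      ← Lk.lf_md (La.Pe.md_sI A B), t.2 n (c.mul_right c'), ch,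
      ← jacobiSym.quadratic_reciprocity_one_mod_four (by have := ad.2; omega)
        (Nat.coprime_two_right.1 (c.coprime_dvd_right (Finset.dvd_prod_of_mem (fun p => p) two))),
      Int.natAbs_of_nonneg pos.le, mul_comm]

/-- the coefficients at a prime -/
theorem Tn.pr (T : Tn δ S a A B A' B') (hl : l.Prime) (m : l ∉ S) :
    al A' B' l = J(l | δ.natAbs) * a l :=
  T.co l (Nat.Coprime.prod_right fun k e => (Nat.coprime_primes hl (T.pm k e)).2 fun f => m (f ▸ e))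

theorem ch_one (h : c ≡ 1 [MOD δ.natAbs]) : ch δ c = 1 := by
  rw [ch, jacobiSym.mod_left' (a₂ := 1) (by exact_mod_cast congrArg (Nat.cast : ℕ → ℤ) h),
    jacobiSym.one_left]

theorem s0_one (h : c ≡ 1 [MOD δ.natAbs]) : s0 δ c c = (c ^ 2 - c) ^ 2 := by
  rw [← s0_eq, ch_one h]
  ring

/-- a sign as a unit -/
def su {ε : ℤ} (h : ε * ε = 1) : ℤ_[2]ˣ :=
  ⟨ε, ε, by exact_mod_cast congrArg (Int.cast : ℤ → ℤ_[2]) h,
    by exact_mod_cast congrArg (Int.cast : ℤ → ℤ_[2]) h⟩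

/-- **the value for the trivial character** -/
theorem k0 (T : Tn δ S a A B A' B') (l0 : l ≠ 0) (hl : l.primeFactors = S) (hc : c.Coprime l)
    (hd : d.Coprime l) {ι : Qb →+* ℂ_[2]} {b : Qb} {θ s : K} {ρ : ℚ} (hθ : am θ = ι b)
    (hs : am s = ι (rt δ)) (hb : io b * w0 A B = Lw a fun n => sm c d (wt l (ch δ)) n)
    (hρ : Lw (al A' B') (cS S 1) = ρ * w0 A' B') :
    ∃ u : ℤ_[2]ˣ, s * θ = (u * s0 δ c d : ℤ_[2]) * ρ := by
  obtain ⟨ε, e1, hr⟩ := T.ex_r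
  have e := congrArg ι (num0 T l0 hl hc hd hr hb hρ)
  have e2 := congrArg (Int.cast : ℤ → ℂ_[2]) e1
  refine ⟨su e1, am.injective ?_⟩
  simp only [su, PadicInt.coe_mul, PadicInt.coe_intCast, map_mul, map_intCast, map_ratCast, hθ, hs,
    Int.cast_mul, Int.cast_one] at e e2 ⊢
  linear_combination (ε : ℂ_[2]) * e - ι (rt δ) * ι b * e2

/-- **the value for the logarithm** -/
theorem k1 (T : Tn δ S a A B A' B') (R : RN N G a) (h : El A B)
    (fin : {p : ℕ | p.Prime ∧ al A B p ≠ a p}.Finite) (z : s0 δ c d ≠ 0) :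
    ∃ m : ℕ, Lw (al A' B') (cS S 1) = 0 → ∀ (n q l : ℕ) (W : ZMod q → ZMod (2 ^ n)) χ (b : Qb)
      (ι : Qb →+* ℂ_[2]) (θ s : K), Rb.Lx q n W χ → q ∉ S → W (-1) = 0 → l ≠ 0 →
      l.primeFactors = insert q S → c.Coprime l → d.Coprime l → am θ = ι b → am s = ι (rt δ) →
      (io b * w0 A B = Lw a fun j => sm c d (wt l fun k => ch δ k * (W k).val) j) →
      ∃ (x : Qb) (μ : K) (u : ℤ_[2]ˣ),
        io x * w0 A' B' = Lw (al A' B') (cS (insert q S) fun k => (W k).val) ∧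
        ‖am μ - ι x‖ * 2 ^ n ≤ 2 ^ m ∧ s * θ = (u * s0 δ c d : ℤ_[2]) * μ := by
  obtain ⟨D, D0, hD⟩ := Lk.hd h ⟨R, fin⟩
  obtain ⟨ε, e1, hr⟩ := T.ex_r
  obtain ⟨m, hm⟩ := num1 T R D0 hD z hr
  refine ⟨m, fun h0 n q l W χ b ι θ s X qS W1 l0 hl hc hd hθ hs hb => ?_⟩
  obtain ⟨x, e, k⟩ := hm h0 n q l W b X.pr qS X.mul W1 l0 hl hc hd hb ι
  refine ⟨x, θ * (ε * s) / s0 δ c d, su e1, e, ?_, ?_⟩
  · simpa only [map_sub, map_div₀, map_mul, map_intCast, hθ, hs] using k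
  · have e2 := congrArg (Int.cast : ℤ → K) e1
    have : (s0 δ c d : K) ≠ 0 := Int.cast_ne_zero.2 z
    simp only [su, PadicInt.coe_mul, PadicInt.coe_intCast, Int.cast_mul, Int.cast_one] at e2 ⊢
    field_simp
    linear_combination -(s * θ) * e2

/-- rationality -/
theorem Tn.rho (T : Tn δ S a A B A' B') (R : RN N G a) (h : El A B)
    (fin : {p : ℕ | p.Prime ∧ al A B p ≠ a p}.Finite) :
    ∃ ρ : ℚ, Lw (al A' B') (cS S 1) = ρ * w0 A' B' :=
  let ⟨_, D0, hD⟩ := Lk.hd h ⟨R, fin⟩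
  T.rat R D0 hD

end Vale.Agent.P014T.Zr.Nm
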